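import Vale.Agent.P088.R2.H516.P.Omr
import Vale.Agent.P088.R2.H867.Z.CbX

/-!
# Zone B1: the leaf `zB`
-/

open Set Filter
open scoped ContDiff Topology

noncomputable section

namespace Vale.Agent.P088.R2.H516.P

open Vale.Agent.P088.LR Vale.Agent.P088.HY
open Vale.Agent.P088.R2.H31.EP
open Vale.Agent.P088.R2.H558.G (Lf ZRB)

/-- **Leaf `zB`** from the family classes. -/
theorem zrB_of {n : ℕ} (hn : 3 ≤ n) (hR : H867.CbT.RowF n) {F : Lf n}
    (hF : F.ZB = fun K q d => d.ZB q K) (hF' : F.ZB' = fun K q d => d.ZB' q K) : ZRB F :=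
  zrB (by omega) hF hF' (rowOm n) (H867.CbT.rowCB' hn hR)

end Vale.Agent.P088.R2.H516.P
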