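import Vale.Agent.P088.R2.H516.P.Zthm
import Vale.Agent.P088.R2.H696.B1.Pt
import Vale.Agent.P088.R2.H856.O.Ob

/-!
# Zone B1 on the package: the region of the curved box
-/

open Set Filter
open scoped ContDiff Topology

noncomputable section

namespace Vale.Agent.P088.R2.H516.P

open Vale.Agent.P088.LR Vale.Agent.P088.HY
open Vale.Agent.P088.R2.H31.EP
open Vale.Agent.P088.R2.H696.B1 (OB TB isOpen_OB supp_OB)

/-- **Row Om.** -/
theorem rowOm (n : ℕ) : RowOm n OB := by
  refine ((TB.ev n (e := fun _ => 1) (fun _ => rfl) (EvC.of fun _ => ⟨one_pos, le_rfl⟩)).and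
    (EvC.at_c₀ (fun _ t => t ≤ 1 / 100) fun _ => sml_le (by norm_num))).mono ?_
  rintro q ⟨T, c⟩ d h
  have f := fun z (hz : z ∈ OB q d) => H856.O.ob_facts h T.th hz.1 hz.2.2.1
  exact ⟨isOpen_OB h T, supp_OB h T c, fun z hz => (f z hz).1, fun z hz => (f z hz).2.1,
    fun z hz => (f z hz).2.2.1⟩

end Vale.Agent.P088.R2.H516.P
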