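import Vale.Agent.P088.R2.H516.O.Cr5
import Vale.Agent.P088.R2.H867.Z.Ho4
import Vale.Agent.P088.R2.H814.B2.Pz5

/-!
# Zone B1 on the package: the region of the cut-off
-/

open Set Filter
open scoped ContDiff Topology Matrix

noncomputable section

namespace Vale.Agent.P088.R2.H516.P

open Vale.Agent.P088.LR Vale.Agent.P088.HY
open Vale.Agent.P088.R2.H31.EP
open Vale.Agent.P088.R2.H464.Cu (rq)
open Vale.Agent.P088.R2.H867.EP (Cut Zo path sd fac cs sn pr_side)
open Vale.Agent.P088.R2.H867.Z (BC GB)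
open Vale.Agent.P088.R2.H516.O (Nm)
open Vale.Agent.P088.R2.H814.An (UB)

variable {n : ℕ} {q : Cst} {d : Pk n} {z : VV n}

theorem side_of {j : Zo} (hj : d.ch q j z ≠ 0) {i : Cut} (hi : i ∈ path j) :
    (sd j i = true → 0 < d.cv q i z) ∧ (sd j i = false → d.cv q i z < 1) := pr_side Fl_pair hj hi

/-- The support of the cut-off is in the region. -/
theorem GB_of (hj : d.ch q .zB z ≠ 0) : GB d q z := by
  have key : ∀ {i : Cut}, i ∈ path .zB → (sd .zB i = true → 0 < d.cv q i z) ∧
      (sd .zB i = false → d.cv q i z < 1) := fun hi => side_of hj hi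
  have a1 := (key (i := .inf) (by decide)).2 (by decide)
  have a2 := (key (i := .eB) (by decide)).1 (by decide)
  have a3 := (key (i := .co) (by decide)).2 (by decide)
  exact ⟨a1, by linarith, by linarith⟩

/-- `u < uta`. -/
theorem up' (hq : BC n q) (h : PkOk q d) (hz : GB d q z) : d.u q z < d.uta q := by
  have i := hq.nr.cd.inf
  have hR := hq.nr.R0
  have h1 := hq.lN h z
  have h2 := hq.th0.1
  have h3 := BC.u_gt hz
  have h4 : d.tinf q z < 1 := hz.1
  rw [d.tinf_eq q] at h4
  have h5 := (H404.INF.tinf_lt i.κ0 i.σ0 i.R0 h4).2.2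
  have h6 := (abs_le.1 (BC.u0u h z)).2
  have e0 : d.u0 z = d.l z.1 + d.l z.2 := rfl
  have e3 : d.utb q = 2 * d.l₀ q + 47 / 10 * q.R := rfl
  by_contra hc
  have h7 := hq.nr.slope h (not_lt.1 hc) (by rw [e3]; linarith)
  have e : Real.log (d.N q z) = Real.log (deriv d.Φ (d.u q z)) := rfl
  linarith

/-- `16 N² ≤ E`. -/
theorem N16 (hq : BC n q) (h : PkOk q d) (hz : GB d q z) : 16 * d.N q z ^ 2 ≤ d.E q z := by
  have h1 := hq.lN h z
  obtain ⟨t1, -, -⟩ := hq.th0
  have h2 := BC.u_gt hz
  have hN : 0 < d.N q z := h.N_pos hq.nr.M1 _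
  have hE : d.E q z = Real.exp (d.u q z) := rfl
  have e16 : (16 : ℝ) ≤ Real.exp 15 := by
    have := Real.add_one_le_exp (15 : ℝ)
    linarith
  have e1 : Real.exp (15 + 2 * Real.log (d.N q z)) ≤ Real.exp (d.u q z) :=
    Real.exp_le_exp.2 (by linarith)
  rw [Real.exp_add] at e1
  have e2 : Real.exp (2 * Real.log (d.N q z)) = d.N q z ^ 2 := by
    rw [← Real.exp_log (pow_pos hN 2), Real.log_pow]
    push_cast
    ring_nf
  rw [e2] at e1
  rw [hE]
  refine le_trans ?_ e1
  exact mul_le_mul_of_nonneg_right e16 (sq_nonneg _)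

/-- **The numbers of a point of the region.** -/
theorem nm_of (hq : BC n q) (h : PkOk q d) (hz : GB d q z) :
    Nm (d.E q z) (√(d.r2 z)) (d.N q z) (d.m q z) (1 + d.m q z) (d.N q z + (1 + d.m q z))
      (√(d.gB q z)) := by
  obtain ⟨n1, n2, n3, -⟩ := hq.num h hz
  have n16 := N16 hq h hz
  have hm := hq.m0 h z
  have hE : 0 < d.E q z := Real.exp_pos _
  have r16 := (hq.r2_le h hz).2
  have r0 : 0 ≤ d.r2 z := by
    have e : d.m q z = d.E q z * d.r2 z := rfl
    rw [e] at hm
    by_contra hc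
    have := mul_neg_of_pos_of_neg hE (not_le.1 hc)
    linarith
  have hg : 0 ≤ d.gB q z := by
    rw [d.gB_eq]; positivity
  exact
    { E0 := hE
      r0 := Real.sqrt_nonneg _
      r1 := by
        rw [show (1 : ℝ) = √1 by simp]
        exact Real.sqrt_le_sqrt (by linarith)
      N0 := by linarith
      G0 := Real.sqrt_nonneg _
      hm := by rw [Real.sq_sqrt r0]; rfl
      hμ := rfl
      hM := rfl
      G2 := by
        rw [Real.sq_sqrt hg, d.gB_eq]
        field_simp
      a1 := by
        generalize d.N q z = N at *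
        generalize d.E q z = E at *
        generalize d.m q z = m at *
        have h1 : E ≤ E * (1 + m) := le_mul_of_one_le_right hE.le (by linarith)
        have h3 : 2 * N * (1 + m) ≤ E / 8 * (1 + m) := by
          have : 2 * N ≤ E / 8 := by nlinarith
          exact mul_le_mul_of_nonneg_right this (by linarith)
        have h4 : (1 + m) * (1 + m) ≤ E / 2 * (1 + m) :=
          mul_le_mul_of_nonneg_right (by linarith) (by linarith)
        nlinarith
      a2 := n3 }

/-- The region of helper814. -/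
theorem UB_of (hq : BC n q) (h : PkOk q d) (hz : GB d q z) : z ∈ UB q d := by
  obtain ⟨n1, n2, n3, -⟩ := hq.num h hz
  have n16 := N16 hq h hz
  have hE : 0 < d.E q z := Real.exp_pos _
  have r16 := (hq.r2_le h hz).2
  refine ⟨⟨by linarith, up' hq h hz⟩, ?_⟩
  have h1 : √(d.r2 z) ≤ 1 / 4 := by
    rw [show (1 / 4 : ℝ) = √(1 / 16) by
      rw [show (1 / 16 : ℝ) = (1 / 4) ^ 2 by norm_num]
      exact (Real.sqrt_sq (by norm_num)).symm]
    exact Real.sqrt_le_sqrt r16
  have h2 : d.N q z / d.E q z ≤ 1 / 16 := by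
    rw [div_le_iff₀ hE]
    nlinarith
  linarith

end Vale.Agent.P088.R2.H516.P
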