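import Vale.Agent.P088.R2.H516.P.Reg
import Vale.Agent.P088.R2.H516.O.Out3
import Vale.Agent.P088.R2.H856.O.H5q
import Vale.Agent.P088.R2.H593.B.Inv
import Vale.Agent.P088.R2.H281.EP.Bas
import Vale.Agent.P088.R2.H932.EP.Hb2
import Vale.Agent.P088.R2.H558.G.Shape

/-!
# Zone B1 on the package: the zone theorem of the cut-off `ch zB`

The inputs: row HO (helper867, helper932), the curved box (helper676), the region.
-/

open Set Filter MeasureTheory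
open scoped ContDiff Topology Matrix

noncomputable section

namespace Vale.Agent.P088.R2.H516.P

open Vale.Agent.P088.LR Vale.Agent.P088.HY
open Vale.Agent.P088.R2.H31.EP
open Vale.Agent.P088.R2.H464.Cu (rq)
open Vale.Agent.P088.R2.H961.GW (Sl Te In Sm slx sly Cm)
open Vale.Agent.P088.R2.H867.EP (Cut Zo fac cs)
open Vale.Agent.P088.R2.H867.Z (BC GB HO' tt1 tt2)
open Vale.Agent.P088.R2.H932.EP (Nz HbC cWB)
open Vale.Agent.P088.R2.H516.O (Nm WB HO HM CB H5 cCr mgM coO)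
open Vale.Agent.P088.R2.H814.An (UB Kwb Zq')
open Vale.Agent.P088.R2.H676.F (Mxf F5t)
open Vale.Agent.P088.R2.H551.E (Q8)
open Vale.Agent.P088.R2.H455.E (Bas nu)
open Vale.Agent.P088.R2.H856.O (Qc h5_ex dB)

variable {n : ℕ} {q : Cst} {d : Pk n} {z : VV n}

/-! ## The constants -/

/-- The constant of `WB`. -/
def Cw (n : ℕ) (q : Cst) : ℝ := max 1 (Kwb n q.ph)

/-- The factor of the costs before the margin. -/
def K1 (n : ℕ) (q : Cst) : ℝ := max 1 (max (q.KB n (cWB n)) (cCr n (Cw n q) (q.AB n)))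

/-- **The constant of `ZB`, `ZB'`.** -/
def Kz (n : ℕ) (q : Cst) : ℝ := 2 * K1 n q

/-- The constant of the margin. -/
def Cmq (n : ℕ) (q : Cst) : ℝ := 16 * ((n : ℝ) + 1) ^ 2 * Cw n q ^ 2

theorem Cw_one (n : ℕ) (q : Cst) : 1 ≤ Cw n q := le_max_left _ _

theorem nb_Cw (n : ℕ) : NB_ηc (Cw n) := fun _ => rfl

/-! ## Row CB and the region -/

/-- The region of the curved box. -/
structure Om (q : Cst) (d : Pk n) (Ω : Set (VV n)) : Prop where
  op : IsOpen Ω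
  ts : tsupport (d.ch q .zB) ⊆ Ω
  nz : ∀ z ∈ Ω, Nz q d z
  E1 : ∀ z ∈ Ω, 1 ≤ d.E q z
  N2 : ∀ z ∈ Ω, d.N q z ^ 2 ≤ 2 * d.E q z

/-- **Row Om** (helper696, helper724). -/
def RowOm (n : ℕ) (Ω : Cst → Pk n → Set (VV n)) : Prop :=
  EvC fun q => ∀ d : Pk n, PkOk q d → Om q d (Ω q d)

/-- The curved box for the package. -/
def CBq (q : Cst) (d : Pk n) (Ω : Set (VV n)) (η c₀ C : ℝ) : Prop :=
  CB d.sx d.sy univ Ω (fun _ => 1) (fun _ => 0) (fun _ => 0) (d.W q) (d.eB q) (d.hB q) (d.fB q)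
    (Mxf d.sx d.sy univ (fun _ => 1) (d.W q) (d.gB q))
    (F5t d.sx d.sy univ (fun _ => 1) (d.W q) (dB q d η)) c₀ C

/-- **Row CB** (helper676): the size `η` of the fifth cost is chosen after `c₀`, `C` (any
`0 < η ≤ η₁`). -/
def RowCB (n : ℕ) (Ω : Cst → Pk n → Set (VV n)) : Prop :=
  ∃ c₀ C η₁ : Cst → ℝ, ((∀ q, 0 < c₀ q) ∧ NB_ηc c₀) ∧ ((∀ q, 0 ≤ C q) ∧ NB_ηc C) ∧
    ((∀ q, 0 < η₁ q) ∧ NB_ηc η₁) ∧
    ∀ η : Cst → ℝ, ((∀ q, 0 < η q ∧ η q ≤ η₁ q) ∧ NB_ηc η) →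
      EvC fun q => ∀ d : Pk n, PkOk q d → CBq q d (Ω q d) (η q) (c₀ q) (C q)

/-! ## Monotonicity -/

theorem WB_mono {σ τ : Sl (VV n) (Fin n)} {W : VV n → ℝ} {C C' e r N : ℝ}
    (h : WB σ τ W C e r N z) (hC : C ≤ C') (he : 0 ≤ e) (hr : 0 ≤ r) (hN : 0 ≤ N) (h1 : 1 ≤ C') :
    WB σ τ W C' e r N z := by
  have a0 : 0 ≤ e * r + N := by positivity
  have a1 : 0 ≤ e * r ^ 2 + N := by positivity
  have m0 := mul_le_mul_of_nonneg_right hC he
  have m1 := mul_le_mul_of_nonneg_right hC a0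
  have m2 := mul_le_mul_of_nonneg_right hC a1
  exact
    { s1 := h.s1
      s2 := h.s2
      sd := fun i j => (h.sd i j).trans m1
      t1 := fun l i j => (h.t1 l i j).trans hC
      t2 := fun l i j => (h.t2 l i j).trans hC
      td := fun l i j => (h.td l i j).trans m1
      w1 := fun i => (h.w1 i).trans m1
      w2 := fun i => (h.w2 i).trans m1
      wp := fun i => (h.wp i).trans m2
      h1 := fun i j => (h.h1 i j).trans m0
      h2 := fun i j => (h.h2 i j).trans m0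
      hm := fun i j => (h.hm i j).trans m0
      p1 := fun i j => (h.p1 i j).trans m1
      p2 := fun i j => (h.p2 i j).trans m1
      pp := fun i j => (h.pp i j).trans m2
      l11 := fun i => (h.l11 i).trans m0
      l12 := fun i => (h.l12 i).trans m0
      l21 := fun i => (h.l21 i).trans m0
      l22 := fun i => (h.l22 i).trans m0
      lp := fun i => (h.lp i).trans m1 }

/-! ## The field `cr` -/

/-- The slots are elliptic. -/
theorem el_x {s : MF n} (h : H551.E.El s) (z : VV n) :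
    H86.Z.El (slx (fun _ => (1 : ℝ)) s) z where
  up A := (h z.1 A).2
  lo A := by
    have := (h z.1 A).1
    change ∑ i, A i ^ 2 ≤ 2 * ∑ i, ∑ j, s z.1 i j * A i * A j
    linarith

theorem el_y {s : MF n} (h : H551.E.El s) (z : VV n) :
    H86.Z.El (sly (fun _ => (1 : ℝ)) s) z where
  up A := (h z.2 A).2
  lo A := by
    have := (h z.2 A).1
    change ∑ i, A i ^ 2 ≤ 2 * ∑ i, ∑ j, s z.2 i j * A i * A j
    linarith

theorem sq_zero {f : Fin n → ℝ} {a : ℝ} (h : ∑ i, f i ^ 2 ≤ a ^ 2) (ha : a = 0) (i : Fin n) :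
    f i = 0 := by
  rw [ha] at h
  have h1 : f i ^ 2 ≤ ∑ i, f i ^ 2 :=
    Finset.single_le_sum (f := fun i => f i ^ 2) (fun _ _ => sq_nonneg _) (Finset.mem_univ i)
  have h2 : f i ^ 2 = 0 := le_antisymm (by linarith) (sq_nonneg _)
  exact pow_eq_zero_iff (two_ne_zero) |>.1 h2

theorem ch_01 (d : Pk n) (q : Cst) (j : Zo) (z : VV n) : 0 ≤ d.ch q j z ∧ d.ch q j z ≤ 1 :=
  ⟨H867.EP.ch_nn Fl_pair _ _ _, H867.EP.ch_le Fl_pair _ _ _⟩

section pack

variable (hq : BC n q) (zq : Zq' n q) (h : PkOk q d) (B : Bas q d)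

include B in
theorem ok_x : d.sx.Ok univ fun _ => 1 :=
  H593.B.okx' B.s₁ B.s₂ (fun x i j => (B.y₁ x).apply j i) (fun x i j => (B.y₂ x).apply j i)
    isOpen_univ

include B in
theorem ok_y : d.sy.Ok univ fun _ => 1 :=
  H593.B.oky' B.s₁ B.s₂ (fun x i j => (B.y₁ x).apply j i) (fun x i j => (B.y₂ x).apply j i)
    isOpen_univ

include B in
theorem cm_xy : Cm d.sx d.sy univ :=
  H593.B.cm' B.s₁ B.s₂ (fun x i j => (B.y₁ x).apply j i) (fun x i j => (B.y₂ x).apply j i)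
    isOpen_univ

include hq zq h in
theorem wb_of (hz : GB d q z) :
    WB d.sx d.sy (d.W q) (Cw n q) (d.E q z) (√(d.r2 z)) (d.N q z) z := by
  have nm := nm_of hq h hz
  exact WB_mono (H814.An.wbP zq h (UB_of hq h hz)) (le_max_right _ _) nm.E0.le nm.r0 nm.N0
    (Cw_one n q)

include hq h in
/-- The majorants of the layers. -/
theorem t_le (hz : GB d q z) :
    tt1 q.ηc (d.cv q .co) (d.cv q .eB) (d.cv q .inf) z ≤ d.T1B q z ∧
    tt2 (d.cv q .co) (d.cv q .eB) (d.cv q .inf) z ≤ d.T2B q z := by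
  have hi : cs (d.cv q .inf z) = 1 := H867.EP.cs_zero (hq.inf0 h hz).le
  have a1 := H867.Z.tt1_01 q.ηc (d.cv q .co) (d.cv q .eB) (d.cv q .inf) z
  have a2 := H867.Z.tt2_01 (d.cv q .co) (d.cv q .eB) (d.cv q .inf) z
  constructor
  · by_cases h0 : tt1 q.ηc (d.cv q .co) (d.cv q .eB) (d.cv q .inf) z = 0
    · rw [h0]; exact (d.T1B_01 q z).1
    · obtain ⟨n1, n2, n3, -⟩ := H867.Z.tt1_ne h0
      have : d.T1B q z = 1 := H867.Z.TT1_one n1.le n2.le n3.le hi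
      rw [this]; exact a1.2
  · by_cases h0 : tt2 (d.cv q .co) (d.cv q .eB) (d.cv q .inf) z = 0
    · rw [h0]; exact (d.T2B_01 q z).1
    · obtain ⟨n1, n2, n3, -⟩ := H867.Z.tt2_ne h0
      have : d.T2B q z = 1 := H867.Z.TT2_one n1.le n2.le n3.le hi
      rw [this]; exact a2.2

include hq zq h B in
/-- **The field `cr` on the package.** -/
theorem cr_pk {K : ℝ} (hK : cCr n (Cw n q) (q.AB n) ≤ K)
    (H : HO' d.s₁ d.s₂ (d.W q) (d.ch q .zB) (d.psiB q) (d.omB q) (d.wB q) (d.gB q) (d.eB q)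
      (d.hB q) (d.fB q) (d.ZB q K) (d.ZB' q K) z) (A A' : Fin n → ℝ) (x y : ℝ) :
    |O.sf d.sx d.sy 0 0 (d.W q) z (fun i => d.ch q .zB z * A i - x * d.sx.D i (d.ch q .zB) z)
        (fun i => d.ch q .zB z * A' i - y * d.sy.D i (d.ch q .zB) z) (d.ch q .zB z * x)
        (d.ch q .zB z * y) -
      d.ch q .zB z ^ 2 * O.sf d.sx d.sy 0 0 (d.W q) z A A' x y| ≤
    d.ZB q K z * ((∑ i, A i ^ 2) + (∑ i, A' i ^ 2) + d.gB q z * (∑ i, (A i - A' i) ^ 2) +
      (d.sx.F (d.W q) z * x ^ 2 + d.sy.F (d.W q) z * y ^ 2) + d.eB q z * (x + y) ^ 2 +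
        d.fB q z * (x - y) ^ 2) := by
  have ok := ok_x B
  have ot := ok_y B
  have F1 : 0 ≤ d.sx.F (d.W q) z := (el_x B.e₁ z).F0 _
  have F2 : 0 ≤ d.sy.F (d.W q) z := (el_y B.e₂ z).F0 _
  have a1 : 0 ≤ ∑ i, A i ^ 2 := Finset.sum_nonneg fun _ _ => sq_nonneg _
  have a2 : 0 ≤ ∑ i, A' i ^ 2 := Finset.sum_nonneg fun _ _ => sq_nonneg _
  have a3 : 0 ≤ ∑ i, (A i - A' i) ^ 2 := Finset.sum_nonneg fun _ _ => sq_nonneg _
  have a4 := mul_nonneg H.g0 a3
  have a5 := mul_nonneg F1 (sq_nonneg x)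
  have a6 := mul_nonneg F2 (sq_nonneg y)
  have a7 := mul_nonneg H.e0 (sq_nonneg (x + y))
  have a8 := mul_nonneg H.f0 (sq_nonneg (x - y))
  by_cases hz : GB d q z
  · have nm := nm_of hq h hz
    have wb := wb_of hq zq h hz
    have g2 : √(d.gB q z) ^ 2 = d.gB q z := Real.sq_sqrt H.g0
    obtain ⟨tl1, tl2⟩ := t_le hq h hz
    have t1 := H867.Z.tt1_01 q.ηc (d.cv q .co) (d.cv q .eB) (d.cv q .inf) z
    have t2 := H867.Z.tt2_01 (d.cv q .co) (d.cv q .eB) (d.cv q .inf) z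
    have T1 := d.T1B_01 q z
    have T2 := d.T2B_01 q z
    have α0 : 0 ≤ q.αB n := mul_nonneg (by linarith [hq.cN1]) hq.nr.η0.le
    have α1 : q.αB n ≤ 1 := hq.aη
    have A0 : 0 ≤ q.AB n := by
      unfold Cst.AB Cst.c1B H867.Z.Gp.c₁
      positivity
    have hχ : |d.ch q .zB z| ≤ 1 := by
      rw [abs_of_nonneg (ch_01 d q .zB z).1]
      exact (ch_01 d q .zB z).2
    have key := wb.cr (v₁ := 0) (v₂ := 0) (χ := d.ch q .zB) (k := q.AB n)
      (β := q.αB n * tt1 q.ηc (d.cv q .co) (d.cv q .eB) (d.cv q .inf) z)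
      (γ := tt2 (d.cv q .co) (d.cv q .eB) (d.cv q .inf) z) (Cw_one n q) nm
      (by nlinarith [nm.N0, N16 hq h hz, (hq.num h hz).1]) ok ot (cm_xy B) (fun _ => rfl)
      (fun _ => rfl) B.W.contDiffOn (mem_univ z) A0 (mul_nonneg α0 t1.1)
      (mul_le_one₀ α1 t1.1 t1.2) t2.1 t2.2 hχ H.d1 H.dd A A' x y
    refine key.trans ?_
    have hM : 0 < d.N q z + (1 + d.m q z) := nm.M0
    have hμ : 0 ≤ (1 + d.m q z) / (d.N q z + (1 + d.m q z)) :=
      div_nonneg (by linarith [nm.μ1]) hM.le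
    have eG : (d.N q z + (1 + d.m q z)) ^ 2 * √(d.gB q z) ^ 2 = d.fB q z := by
      rw [g2, d.gB_eq, d.fB_eq]; ring
    have c0 : 0 ≤ cCr n (Cw n q) (q.AB n) := by
      have := Cw_one n q
      unfold cCr O.cH
      positivity
    have k1 : cCr (Fintype.card (Fin n)) (Cw n q) (q.AB n) *
        (q.αB n * tt1 q.ηc (d.cv q .co) (d.cv q .eB) (d.cv q .inf) z +
          tt2 (d.cv q .co) (d.cv q .eB) (d.cv q .inf) z *
            ((1 + d.m q z) / (d.N q z + (1 + d.m q z)))) ≤ d.ZB q K z := by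
      rw [Fintype.card_fin, d.ZB_eq, add_assoc (d.N q z)]
      refine mul_le_mul hK (add_le_add (mul_le_mul_of_nonneg_left tl1 α0)
        (mul_le_mul_of_nonneg_right tl2 hμ)) ?_ (c0.trans hK)
      have := mul_nonneg α0 t1.1
      have := mul_nonneg t2.1 hμ
      linarith
    have eM : ((d.N q z + (1 + d.m q z)) * √(d.gB q z)) ^ 2 = d.fB q z := by
      rw [mul_pow]; exact eG
    rw [eM, g2, ← d.eB_eq q z]
    refine mul_le_mul k1 (by linarith) (by linarith) H.Z0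
  · obtain ⟨o1, o2, o3, o4⟩ := H867.Z.off hz
    have hχ : d.ch q .zB z = 0 := by
      by_contra hc
      exact hz (GB_of hc)
    have hψ : d.psiB q z = 0 := by
      unfold Pk.psiB H867.Z.psiB
      rw [o1, o2]; ring
    have D1 : ∀ i, d.sx.D i (d.ch q .zB) z = 0 := sq_zero H.d1 hψ
    have D2 : ∀ i, d.sy.D i (d.ch q .zB) z = 0 := sq_zero H.d2 hψ
    have Z0 : d.ZB q K z = 0 := (H867.Z.ZB_off K hz).1
    have key := O.sf_cut ok ot 0 0 (d.W q) z (d.ch q .zB z) A A'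
      (fun i => d.sx.D i (d.ch q .zB) z) (fun i => d.sy.D i (d.ch q .zB) z) x y
    rw [key, Z0, zero_mul]
    simp [hχ, D1, D2, O.Q4', O.bl]

theorem K1_one (n : ℕ) (q : Cst) : 1 ≤ K1 n q := le_max_left _ _

theorem KB_le (n : ℕ) (q : Cst) : q.KB n (cWB n) ≤ K1 n q :=
  (le_max_left _ _).trans (le_max_right _ _)

theorem cCr_le (n : ℕ) (q : Cst) : cCr n (Cw n q) (q.AB n) ≤ K1 n q :=
  (le_max_right _ _).trans (le_max_right _ _)

theorem Kz_pos (n : ℕ) (q : Cst) : 0 < Kz n q := by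
  have := K1_one n q
  unfold Kz
  linarith

theorem nb_Kz (n : ℕ) : NB_ηc (Kz n) := fun _ => rfl

theorem nb_Cmq (n : ℕ) : NB_ηc (Cmq n) := fun _ => rfl

theorem Cmq_nn (n : ℕ) (q : Cst) : 0 ≤ Cmq n q := by unfold Cmq; positivity

theorem ZB_two (d : Pk n) (q : Cst) (K : ℝ) (z : VV n) :
    d.ZB q (2 * K) z = 2 * d.ZB q K z := by
  rw [d.ZB_eq, d.ZB_eq]; ring

/-- The data of the package for `q`, `d`. -/
structure HOp (n : ℕ) (q : Cst) (d : Pk n) : Prop where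
  ho : ∀ K, q.KB n (cWB n) ≤ K → ∀ z, HO' d.s₁ d.s₂ (d.W q) (d.ch q .zB) (d.psiB q) (d.omB q)
    (d.wB q) (d.gB q) (d.eB q) (d.hB q) (d.fB q) (d.ZB q K) (d.ZB' q K) z

include hq zq h B in
/-- `HO` for every large constant. -/
theorem ho_K (P : HOp n q d) {K : ℝ} (hK : K1 n q ≤ K) (z : VV n) :
    HO d.sx d.sy 0 0 (d.W q) (d.ch q .zB) (d.psiB q) (d.omB q) (d.wB q) (d.gB q) (d.eB q)
      (d.hB q) (d.fB q) (d.ZB q K) (d.ZB' q K) z := by
  have H := P.ho K ((KB_le n q).trans hK) z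
  exact H.ho (cr_pk hq zq h B ((cCr_le n q).trans hK) H)

include hq zq h B in
/-- The conditions for the margin. -/
theorem hm_K (P : HOp n q d) (z : VV n) :
    HM d.sx d.sy (d.W q) (d.ch q .zB) (d.gB q) (d.gB q) (d.eB q) (d.fB q) (d.fB q)
      (d.ZB q (Kz n q)) (Cmq n q) z := by
  have H' := P.ho (K1 n q) (KB_le n q) z
  have H := ho_K hq zq h B P (le_refl (K1 n q)) z
  have hE : 0 < d.E q z := Real.exp_pos _
  have hm := hq.m0 h z
  have hN : 1 ≤ d.N q z := hq.nr.M1.trans (h.N_ge _)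
  have e1 : d.gB q z ≤ d.E q z := by
    rw [d.gB_eq]
    exact div_le_self hE.le (by linarith)
  have e2 : d.E q z ≤ d.wB q z := by
    rw [d.wB_eq]
    exact le_mul_of_one_le_right hE.le (by linarith)
  have key := H.hm (g₁ := d.gB q) (hi := d.gB q) (wc := d.fB q) (Y := d.ZB q (Kz n q))
    (C := Cw n q) (e := d.E q z) (r := √(d.r2 z)) (N := d.N q z) (m := d.m q z)
    (μ := 1 + d.m q z) (M := d.N q z + (1 + d.m q z)) (G := √(d.gB q z)) H'.dd (e1.trans e2)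
    (fun hc => ?_) (el_x B.e₁ z) (el_y B.e₂ z) H.g0 H.g0 H.f0 ?_ ?_ (ZB_two d q _ z)
  · have ec : Cmq n q = 16 * ((Fintype.card (Fin n) : ℝ) + 1) ^ 2 * Cw n q ^ 2 := by
      rw [Fintype.card_fin]; rfl
    rw [ec]
    exact key
  · have hz : GB d q z := GB_of hc
    have g2 : √(d.gB q z) ^ 2 = d.gB q z := Real.sq_sqrt H.g0
    refine ⟨wb_of hq zq h hz, nm_of hq h hz, g2.symm, g2.symm, rfl, ?_⟩
    rw [mul_pow, g2, d.gB_eq, d.fB_eq]; ring
  · rw [d.eB_eq, pow_two]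
    exact mul_le_mul e1 e1 H.g0 hE.le
  · rw [d.gB_eq, d.fB_eq]
    refine div_le_div_of_nonneg_right ?_ (by linarith)
    exact le_mul_of_one_le_right hE.le (one_le_pow₀ (by linarith))

include hq zq h B in
/-- **The zone inequality on the package.** -/
theorem zone_pk (P : HOp n q d) {Ω : Set (VV n)} (ts : tsupport (d.ch q .zB) ⊆ Ω)
    {η c₀ C : ℝ} (hc : 0 < c₀) (hC : 0 ≤ C) (cb : CBq q d Ω η c₀ C)
    (h5 : H5 d.sx d.sy univ (fun _ => 1) (fun _ => 0) (fun _ => 0) (d.W q) (d.ch q .zB) (d.gB q)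
      (d.eB q) (d.fB q) (d.fB q) (d.ZB q (Kz n q)) (d.ZB' q (Kz n q))
      (Mxf d.sx d.sy univ (fun _ => 1) (d.W q) (d.gB q))
      (F5t d.sx d.sy univ (fun _ => 1) (d.W q) (dB q d η)) c₀ C (85 * C)) :
    d.Zone q (d.ch q .zB) (mgM d.sx d.sy (d.W q) (d.ch q .zB) (d.gB q) (d.eB q) (d.fB q)
      (c₀ / (52 * (1 + Cmq n q)))) (coO d.sx d.sy (d.W q) (d.gB q) (d.eB q) (d.fB q)
        (d.ZB q (Kz n q)) (d.ZB' q (Kz n q)) (1000 * C + 85 * C + 1 + c₀)) := by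
  have z0 : Sm univ fun _ : VV n => (0 : ℝ) := contDiffOn_const
  have K1n := K1_one n q
  have hK : K1 n q ≤ Kz n q := by unfold Kz; linarith
  exact H516.O.zone_MB (ok_x B) (ok_y B) (fun z _ => el_x B.e₁ z) (fun z _ => el_y B.e₂ z) z0 z0
    B.W.contDiffOn (B.ch .zB).contDiffOn (hq.spsi h).contDiffOn (hq.som h).contDiffOn
    (hq.swB h).contDiffOn (hq.sgB h).contDiffOn (hq.seB h).contDiffOn (hq.shB h).contDiffOn
    (hq.sfB h).contDiffOn (hq.sZB h _).contDiffOn (hq.sZB' h _).contDiffOn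
    (fun z _ => ho_K hq zq h B P hK z) (hq.sgB h).contDiffOn (hq.sgB h).contDiffOn
    (hq.sfB h).contDiffOn (fun z _ => hm_K hq zq h B P z)
    (Cmq_nn n q) (isClosed_tsupport (d.ch q .zB)) (fun z hz => ts hz.1)
    (fun z _ hz => image_eq_zero_of_notMem_tsupport hz) hc.le hC cb h5

end pack

/-! ## The letters of helper165, helper455 -/

theorem mg_eq (kz : Cst → Pk n → VV n → ℝ) (q : Cst) (d : Pk n) (c : ℝ) :
    mgM d.sx d.sy (d.W q) (d.ch q .zB) (d.gB q) (d.eB q) (d.fB q) c =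
      (H165.Tab.MB (nu kz q d) c).sm fun z => d.ch q .zB z ^ 2 := by
  have e : ∀ z, d.fB q z = d.E q z * (d.N q z + 1 + d.m q z) ^ 2 / (1 + d.m q z) := fun _ => rfl
  unfold mgM H165.Tab.MB H551.E.Q8.sm
  congr 1 <;> funext z <;>
    simp only [Pi.mul_apply, H165.Tab.Nu.wB, nu, d.gB_eq q z, d.eB_eq q z, e z] <;> ring

theorem co_eq (kz : Cst → Pk n → VV n → ℝ) (q : Cst) (d : Pk n) (K C : ℝ) :
    coO d.sx d.sy (d.W q) (d.gB q) (d.eB q) (d.fB q) (d.ZB q K) (d.ZB' q K) C =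
      H165.Tab.cB (nu kz q d) C (d.ZB q K) (d.ZB' q K) := by
  have e : ∀ z, d.fB q z = d.E q z * (d.N q z + 1 + d.m q z) ^ 2 / (1 + d.m q z) := fun _ => rfl
  unfold coO H165.Tab.cB H165.Tab.uB H551.E.Q8.sm
  change _ = H551.E.Q8.mk _ _ _ _ _ _ _ _
  congr 1 <;> funext z <;>
    simp only [Pi.add_apply, Pi.mul_apply, Pi.zero_apply, H165.Tab.Nu.wB, nu, d.gB_eq q z,
      d.eB_eq q z, e z] <;> ring

/-! ## The leaf -/

/-- The number `η₀` of helper856 as a function of the constants. -/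
def ηf (n : ℕ) (c C : ℝ) : ℝ := if h : 0 < c ∧ 0 ≤ C then (h5_ex n h.1 h.2).choose else 1

theorem ηf_pos (n : ℕ) (c C : ℝ) : 0 < ηf n c C := by
  unfold ηf
  split_ifs with h
  · exact (h5_ex n h.1 h.2).choose_spec.1
  · exact one_pos

/-- **The zone inequality on the package** in the letters of helper165. -/
theorem fin_pk (hq : BC n q) (zq : Zq' n q) (h : PkOk q d) (B : Bas q d) (S : LitSm q d)
    (Q : Qc n q) (P : HOp n q d) {Ω : Set (VV n)} (O : Om q d Ω) {c₀ C η₁ : ℝ} (hc : 0 < c₀)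
    (hC : 0 ≤ C) (h1 : 0 < η₁) (cb : CBq q d Ω (min (ηf n c₀ C) η₁) c₀ C)
    (kz : Cst → Pk n → VV n → ℝ) :
    d.Zone q (d.ch q .zB) ((H165.Tab.MB (nu kz q d) (c₀ / (52 * (1 + Cmq n q)))).sm
      fun z => d.ch q .zB z ^ 2) (H165.Tab.cB (nu kz q d) (1000 * C + 85 * C + 1 + c₀)
        (d.ZB q (Kz n q)) (d.ZB' q (Kz n q))) := by
  obtain ⟨-, -, h5⟩ := (h5_ex n hc hC).choose_spec
  have hη0 : ηf n c₀ C = (h5_ex n hc hC).choose := by
    unfold ηf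
    rw [dif_pos ⟨hc, hC⟩]
  have hη : 0 ≤ min (ηf n c₀ C) η₁ := (lt_min (ηf_pos _ _ _) h1).le
  have hK : K1 n q ≤ Kz n q := by
    have := K1_one n q
    unfold Kz; linarith
  have H5 := h5 (min (ηf n c₀ C) η₁) hη (by rw [← hη0]; exact min_le_left _ _)
    q d Q h S B.W (ok_x B) (ok_y B) (el_x B.e₁) (el_y B.e₂) Ω (d.ch q .zB) (d.psiB q)
    (d.omB q) (d.ZB q (Kz n q)) (d.ZB' q (Kz n q)) O.op O.ts O.nz O.E1 O.N2
    (fun z _ => zero_le_one.trans (hq.nr.M1.trans (h.N_ge _))) (B.ch .zB).contDiffOn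
    (hq.spsi h).contDiffOn (hq.som h).contDiffOn (hq.sZB h _).contDiffOn
    (hq.sZB' h _).contDiffOn (P.ho _ ((KB_le n q).trans hK)) (ho_K hq zq h B P hK)
  have key := zone_pk hq zq h B P O.ts hc hC cb H5
  rw [mg_eq kz, co_eq kz] at key
  exact key

open Vale.Agent.P088.R2.H558.G (Lf ZRB)
open Vale.Agent.P088.R2.H455.E (Lc Mz coz ZoE SmE)

/-- **The zone theorem of the leaf `zB`.** -/
theorem zt_B (hn : 1 ≤ n) {Ω : Cst → Pk n → Set (VV n)} (hΩ : RowOm n Ω) {c₀ C η₁ : Cst → ℝ}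
    (hc : ∀ q, 0 < c₀ q) (hC : ∀ q, 0 ≤ C q) (h1 : ∀ q, 0 < η₁ q)
    (hcb : EvC fun q => ∀ d : Pk n, PkOk q d →
      CBq q d (Ω q d) (min (ηf n (c₀ q) (C q)) (η₁ q)) (c₀ q) (C q))
    (kz : Cst → Pk n → VV n → ℝ) :
    ZoneThm n (fun q d => d.ch q .zB)
      (fun q d => (H165.Tab.MB (nu kz q d) (c₀ q / (52 * (1 + Cmq n q)))).sm
        fun z => d.ch q .zB z ^ 2)
      (fun q d => H165.Tab.cB (nu kz q d) (1000 * C q + 85 * C q + 1 + c₀ q)
        (d.ZB q (Kz n q)) (d.ZB' q (Kz n q))) := by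
  have key := ((H932.EP.ho_pk n).and ((H814.An.evZq hn).and (H856.O.evQc n))).and
    (((H281.EP.rowBas n).and (EvC.litSm n)).and (hΩ.and hcb))
  refine key.mono ?_
  rintro q ⟨⟨⟨-, hq, ho⟩, zq, Q⟩, ⟨B, S⟩, om, cb⟩ d h
  exact fin_pk hq zq h (B d h) (S d h) Q ⟨ho d h⟩ (om d h) (hc q) (hC q) (h1 q) (cb d h) kz

/-- **Leaf `zB`** from the curved box and the region. -/
theorem zrB {F : Lf n} (hn : 1 ≤ n) (hF : F.ZB = fun K q d => d.ZB q K)
    (hF' : F.ZB' = fun K q d => d.ZB' q K) {Ω : Cst → Pk n → Set (VV n)} (hΩ : RowOm n Ω)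
    (hCB : RowCB n Ω) : ZRB F := by
  obtain ⟨c₀, C, η₁, hc, hC, h1, hcb⟩ := hCB
  have hη : (∀ q, 0 < min (ηf n (c₀ q) (C q)) (η₁ q) ∧ min (ηf n (c₀ q) (C q)) (η₁ q) ≤ η₁ q) ∧
      NB_ηc fun q => min (ηf n (c₀ q) (C q)) (η₁ q) :=
    ⟨fun q => ⟨lt_min (ηf_pos _ _ _) (h1.1 q), min_le_right _ _⟩, fun q => by
      simp only [hc.2 q, hC.2 q, h1.2 q]⟩
  have hcb := hcb _ hη
  refine ⟨fun q => c₀ q / (52 * (1 + Cmq n q)), fun q => 1000 * C q + 85 * C q + 1 + c₀ q, Kz n,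
    ⟨fun q => ?_, fun q => ?_⟩, ⟨fun q => ?_, fun q => ?_⟩, ⟨Kz_pos n, nb_Kz n⟩, ?_⟩
  · have := hc.1 q
    have := Cmq_nn n q
    positivity
  · simp only [hc.2 q, nb_Cmq n q]
  · have := hc.1 q
    have := hC.1 q
    positivity
  · simp only [hc.2 q, hC.2 q]
  intro L e1 e2 e3 e4
  refine ⟨fun _ => 1, ⟨fun _ => rfl, fun _ => one_pos⟩, fun e _ _ => ?_⟩
  have key := zt_B hn hΩ hc.1 hC.1 h1.1 hcb L.kz
  have m1 : (fun q d => Mz L q d .zB) =
      fun q d => H165.Tab.MB (nu L.kz q d) (c₀ q / (52 * (1 + Cmq n q))) := by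
    funext q d
    change H165.Tab.MB (nu L.kz q d) (L.cB q) = _
    rw [e3]
  have m2 : (fun q d => coz L e q d .zB) =
      fun q d => H165.Tab.cB (nu L.kz q d) (1000 * C q + 85 * C q + 1 + c₀ q)
        (d.ZB q (Kz n q)) (d.ZB' q (Kz n q)) := by
    funext q d
    change H165.Tab.cB (nu L.kz q d) (L.CB q) (L.ZB q d) (L.ZB' q d) = _
    rw [e4, e1, e2, hF, hF']
  have m3 : (fun (q : Cst) (d : Pk n) => (Mz L q d .zB).sm fun z => d.ch q .zB z ^ 2) =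
      fun q d => (H165.Tab.MB (nu L.kz q d) (c₀ q / (52 * (1 + Cmq n q)))).sm
        fun z => d.ch q .zB z ^ 2 := by
    funext q d
    rw [congr_fun (congr_fun m1 q) d]
  change ZoneThm n (fun q d => d.ch q .zB) (fun q d => (Mz L q d .zB).sm fun z => d.ch q .zB z ^ 2)
    (fun q d => coz L e q d .zB)
  rw [m3, m2]
  exact key

end Vale.Agent.P088.R2.H516.P
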